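import Vale.Agent.P021.Main
import Vale.Agent.P021.Form
import Vale.Agent.P021.Indep

/-!
The irrationality exponent of the circle constant is at most 7.1020.
-/

namespace Vale.Agent.Results.P021.PiExponent

open Real

/-- The irrationality exponent of `π` is at most `7.1020`, below `7.103205334137`. -/
theorem result :
    (∀ ν : ℝ, 71020 / 10000 < ν → {r : ℤ × ℕ | 2 ≤ r.2 ∧ Nat.Coprime r.1.natAbs r.2 ∧
        0 < |π - r.1 / r.2| ∧ |π - r.1 / r.2| < (r.2 : ℝ) ^ (-ν)}.Finite) ∧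
      BddAbove {ν : ℝ | 0 < ν ∧ {r : ℤ × ℕ | 2 ≤ r.2 ∧ Nat.Coprime r.1.natAbs r.2 ∧
        0 < |π - r.1 / r.2| ∧ |π - r.1 / r.2| < (r.2 : ℝ) ^ (-ν)}.Infinite} ∧
      2 ≤ sSup {ν : ℝ | 0 < ν ∧ {r : ℤ × ℕ | 2 ≤ r.2 ∧ Nat.Coprime r.1.natAbs r.2 ∧
        0 < |π - r.1 / r.2| ∧ |π - r.1 / r.2| < (r.2 : ℝ) ^ (-ν)}.Infinite} ∧
      sSup {ν : ℝ | 0 < ν ∧ {r : ℤ × ℕ | 2 ≤ r.2 ∧ Nat.Coprime r.1.natAbs r.2 ∧
        0 < |π - r.1 / r.2| ∧ |π - r.1 / r.2| < (r.2 : ℝ) ^ (-ν)}.Infinite} ≤ 71020 / 10000 ∧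
      (71020 / 10000 : ℝ) < 7103205334137 / 1000000000000 :=
  Vale.Agent.P021.Main.main_of Vale.Agent.P021.formPin Vale.Agent.P021.Indep.indepPin

end Vale.Agent.Results.P021.PiExponent
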